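namespace Vale.Agent.Lib.P062.Chk

/-- The eight orientation patterns of Snaky as bit masks of width 32, packed 136 bits each. -/
def PATS : Nat := nat_lit 25907488429367816355584292990965221862923975602624952779551168344397968854806022158796583492515042205363926775190456593805637105202298272030013990270210507331081863327021477927172158217058665145126428717538391205397296323098367453078952277914810234781933894879574702921913700769532448132278766161589132826713176732215248158735

/-- Anchors `k` with `k % 32 ≤ 27` and `k / 32 ≤ 27`. -/
def OKPOS : Nat := nat_lit 33018408080663619379732068595103766042982813455868149335398303923452300972513016763920726652251419790270466610587939126299990104721680532823188326438451817353107521819956989757740807598003391659842485270133272014905575634218569451836926325882795430126334894874522812415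

/-- A static table of rows (position mask and zone mask). -/
inductive BT where
  | leaf (M Z : Nat) : BT
  | node (l r : BT) : BT

noncomputable def find (b : BT) : Nat → BT :=
  BT.rec (motive := fun _ => Nat → BT)
    (fun M Z _ => BT.leaf M Z)
    (fun _ _ il ir j =>
      Bool.rec (il (Nat.shiftRight j (nat_lit 1))) (ir (Nat.shiftRight j (nat_lit 1)))
        (Nat.beq (Nat.land j (nat_lit 1)) (nat_lit 1)))
    b

/-- The line `pattern g` shifted by `k` lies in the mask `M`, at an admissible anchor. -/
noncomputable def lineOK (M k g : Nat) : Bool :=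
  (fun L =>
    Bool.rec false (Nat.beq (Nat.land M L) L)
      (Nat.beq (Nat.land (Nat.shiftRight OKPOS k) (nat_lit 1)) (nat_lit 1)))
    (Nat.shiftLeft (Nat.land (Nat.shiftRight PATS (Nat.mul g (nat_lit 136))) (nat_lit 87112285931760246646623899502532662132735)) k)

/-- Loop over the default proof and the further proofs after a Maker move: stops when `R = 0`. -/
noncomputable def kids (ih : Nat → Nat → (Nat → Nat → Bool) → Bool) (kf : Nat) :
    Nat → Nat → Nat → Nat → (Nat → Nat → Bool) → Bool :=
  Nat.rec (motive := fun _ => Nat → Nat → Nat → Nat → (Nat → Nat → Bool) → Bool)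
    (fun _ R Zacc s κ => Bool.rec false (κ Zacc s) (Nat.beq R (nat_lit 0)))
    (fun _ rec M R Zacc s κ =>
      Bool.rec (ih M s fun Zi s' => rec M (Nat.land R Zi) (Nat.lor Zacc Zi) s' κ)
        (κ Zacc s) (Nat.beq R (nat_lit 0)))
    kf

/-- One step of the checker: reads a node of the certificate from the stream `s`. -/
noncomputable def stepRun (K : Nat) (tbl : BT) (ih : Nat → Nat → (Nat → Nat → Bool) → Bool)
    (M s : Nat) (κ : Nat → Nat → Bool) : Bool :=
  Bool.rec
    (Bool.rec
      -- tag 0: finish b k g : Maker plays b and completes a line
      ((fun bb =>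
        Bool.rec false
          (Bool.rec false (κ bb (Nat.shiftRight s (nat_lit 25)))
            (lineOK (Nat.lor M bb) (Nat.land (Nat.shiftRight s (nat_lit 12)) (nat_lit 1023))
              (Nat.land (Nat.shiftRight s (nat_lit 22)) (nat_lit 7))))
          (Nat.beq (Nat.land M bb) (nat_lit 0)))
        (Nat.shiftLeft (nat_lit 1) (Nat.land (Nat.shiftRight s (nat_lit 2)) (nat_lit 1023))))
      -- tag 2: move m : then the default proof, then further proofs
      ((fun bm =>
        Bool.rec false
          ((fun M1 =>
            ih M1 (Nat.shiftRight s (nat_lit 12)) fun Z0 s2 =>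
              kids ih (nat_lit 255) M1 Z0 Z0 s2 fun Z s3 => κ (Nat.lor Z bm) s3)
            (Nat.lor M bm))
          (Nat.beq (Nat.land M bm) (nat_lit 0)))
        (Nat.shiftLeft (nat_lit 1) (Nat.land (Nat.shiftRight s (nat_lit 2)) (nat_lit 1023))))
      (Nat.beq (Nat.land s (nat_lit 2)) (nat_lit 0)))
    (Bool.rec
      -- tag 1: forced m a k g : Maker plays m threatening a, the proof continues for the reply a
      ((fun bm ba =>
        (fun bma =>
          Bool.rec false
            ((fun M1 =>
              Bool.rec false
                (ih M1 (Nat.shiftRight s (nat_lit 35)) fun Zc s2 =>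
                  Bool.rec false (κ (Nat.lor Zc bma) s2)
                    (Nat.beq (Nat.land Zc ba) (nat_lit 0)))
                (lineOK (Nat.lor M1 ba) (Nat.land (Nat.shiftRight s (nat_lit 22)) (nat_lit 1023))
                  (Nat.land (Nat.shiftRight s (nat_lit 32)) (nat_lit 7))))
              (Nat.lor M bm))
            (Bool.rec false (Nat.beq (Nat.land M bma) (nat_lit 0))
              (Nat.beq (Nat.land bm ba) (nat_lit 0))))
          (Nat.lor bm ba))
        (Nat.shiftLeft (nat_lit 1) (Nat.land (Nat.shiftRight s (nat_lit 2)) (nat_lit 1023)))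
        (Nat.shiftLeft (nat_lit 1) (Nat.land (Nat.shiftRight s (nat_lit 12)) (nat_lit 1023))))
      -- tag 3: ref j : row j of the table, with j < K
      ((fun j =>
        Bool.rec false
          (BT.rec (motive := fun _ => Bool)
            (fun Mj Zj => Bool.rec false (κ Zj (Nat.shiftRight s (nat_lit 22))) (Nat.beq Mj M))
            (fun _ _ _ _ => false) (find tbl j))
          (Nat.ble (Nat.succ j) K))
        (Nat.land (Nat.shiftRight s (nat_lit 2)) (nat_lit 1048575)))
      (Nat.beq (Nat.land s (nat_lit 2)) (nat_lit 0)))
    (Nat.beq (Nat.land s (nat_lit 1)) (nat_lit 1))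

noncomputable def run (K : Nat) (tbl : BT) (fuel : Nat) :
    Nat → Nat → (Nat → Nat → Bool) → Bool :=
  Nat.rec (motive := fun _ => Nat → Nat → (Nat → Nat → Bool) → Bool)
    (fun _ _ _ => false) (fun _ ih => stepRun K tbl ih) fuel

/-- Row `k` with stream `s` proves its stated zone. -/
noncomputable def rowOK (tbl : BT) (k s : Nat) : Bool :=
  BT.rec (motive := fun _ => Bool)
    (fun M Z => run k tbl (nat_lit 64) M s fun Z' _ => Nat.beq (Nat.lor Z' Z) Z)
    (fun _ _ _ _ => false) (find tbl k)

/-- All rows of a chunk, starting at index `k`. -/
noncomputable def chunkOK (tbl : BT) (k : Nat) (ss : List Nat) : Bool :=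
  List.rec (motive := fun _ => Nat → Bool)
    (fun _ => true)
    (fun s _ ih k => Bool.rec false (ih (Nat.succ k)) (rowOK tbl k s))
    ss k

end Vale.Agent.Lib.P062.Chk
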