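import Vale.Agent.Lib.P062.Asm2
import Vale.Agent.Lib.P062.CV.C0
import Vale.Agent.Lib.P062.CW.C0

namespace Vale.Agent.Lib.P062.TblR

set_option maxRecDepth 100000

/-- The proof without a reply. -/
noncomputable def x0 : Vale.Agent.Lib.P062.Core.OP := Vale.Agent.Lib.P062.CV.D249

/-- The replies and their proofs. -/
noncomputable def L : List Vale.Agent.Lib.P062.Asm2.Row2 := [
  (190, Vale.Agent.Lib.P062.CV.D5121),
  (209, Vale.Agent.Lib.P062.CV.D6531),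
  (231, Vale.Agent.Lib.P062.CV.D6704),
  (170, Vale.Agent.Lib.P062.CV.D5121),
  (189, Vale.Agent.Lib.P062.CV.D7644),
  (191, Vale.Agent.Lib.P062.CV.D5121),
  (228, Vale.Agent.Lib.P062.CV.D7734),
  (232, Vale.Agent.Lib.P062.CV.D7734),
  (249, Vale.Agent.Lib.P062.CV.D8884),
  (251, Vale.Agent.Lib.P062.CV.D9082),
  (270, Vale.Agent.Lib.P062.CV.D9086),
  (150, Vale.Agent.Lib.P062.CV.D5121),
  (169, Vale.Agent.Lib.P062.CV.D9932),
  (171, Vale.Agent.Lib.P062.CV.D5121),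
  (188, Vale.Agent.Lib.P062.CV.D9940),
  (192, Vale.Agent.Lib.P062.CV.D249),
  (227, Vale.Agent.Lib.P062.CV.D7734),
  (233, Vale.Agent.Lib.P062.CV.D7734),
  (248, Vale.Agent.Lib.P062.CV.D7734),
  (252, Vale.Agent.Lib.P062.CV.D7734),
  (269, Vale.Agent.Lib.P062.CV.D10028),
  (271, Vale.Agent.Lib.P062.CV.D10337),
  (149, Vale.Agent.Lib.P062.CV.D10593),
  (151, Vale.Agent.Lib.P062.CV.D5121),
  (168, Vale.Agent.Lib.P062.CV.D6704),
  (172, Vale.Agent.Lib.P062.CV.D6704),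
  (187, Vale.Agent.Lib.P062.CV.D6704),
  (193, Vale.Agent.Lib.P062.CV.D249),
  (234, Vale.Agent.Lib.P062.CV.D7734),
  (247, Vale.Agent.Lib.P062.CV.D7734),
  (253, Vale.Agent.Lib.P062.CV.D7734),
  (272, Vale.Agent.Lib.P062.CV.D7734),
  (289, Vale.Agent.Lib.P062.CV.D10595),
  (291, Vale.Agent.Lib.P062.CV.D9086),
  (129, Vale.Agent.Lib.P062.CV.D6531),
  (131, Vale.Agent.Lib.P062.CV.D5121),
  (148, Vale.Agent.Lib.P062.CV.D249),
  (167, Vale.Agent.Lib.P062.CV.D249),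
  (186, Vale.Agent.Lib.P062.CV.D249),
  (273, Vale.Agent.Lib.P062.CV.D7734),
  (147, Vale.Agent.Lib.P062.CV.D249),
  (274, Vale.Agent.Lib.P062.CV.D7734),
  (146, Vale.Agent.Lib.P062.CV.D249),
  (229, Vale.Agent.Lib.P062.CV.D17487),
  (173, Vale.Agent.Lib.P062.CV.D6704),
  (207, Vale.Agent.Lib.P062.CV.D6704),
  (208, Vale.Agent.Lib.P062.CV.D6704),
  (213, Vale.Agent.Lib.P062.CV.D6704),
  (214, Vale.Agent.Lib.P062.CV.D6704),
  (246, Vale.Agent.Lib.P062.CV.D7734),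
  (254, Vale.Agent.Lib.P062.CV.D7734),
  (212, Vale.Agent.Lib.P062.CW.D303)
]

theorem hx0 : Nat.beq (Nat.lor x0.M Vale.Agent.Lib.P062.Asm2.S2) Vale.Agent.Lib.P062.Asm2.S2 = true := by decide +kernel

theorem hd1 : Nat.beq (Nat.land x0.F (Nat.shiftLeft 1 211)) 0 = true := by decide +kernel

theorem hsize : Nat.blt x0.F (Nat.shiftLeft 1 400) = true := by decide +kernel

theorem hL : L.all Vale.Agent.Lib.P062.Asm2.rowOK2 = true := by decide +kernel

/-- The list of numbers to check. -/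
def noT : ℕ → Prop := fun i => i = 210 ∨ i = 230 ∨ i = 250

instance : DecidablePred noT := fun i => by unfold noT; infer_instance

theorem cover0 : ∀ i, i < 400 → x0.F.testBit i = true → ¬ noT i → ∃ t ∈ L, t.1 = i := by
  decide +kernel

theorem cover : ∀ i, i < 400 → x0.F.testBit i = true → i ≠ 210 → i ≠ 230 → i ≠ 250 →
    ∃ t ∈ L, t.1 = i := by
  intro i h1 h2 h3 h4 h5
  refine cover0 i h1 h2 ?_
  unfold noT
  omega

end Vale.Agent.Lib.P062.TblR
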